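import Vale.Agent.Lib.P308.Final

/-!
# Near-perfect versus perfect matchings in vertex-transitive graphs

In a finite connected vertex-transitive graph on `n` vertices, the number of near-perfect matchings
is at most `4 n ^ 6` times the number of perfect matchings.  With the theorem of Jerrum and Sinclair
(1989) this gives an FPRAS for the number of perfect matchings on this class of graphs.

Matchings are encoded as involutions `m` of the vertex set: `m v` is the partner of `v`, and
`m v = v` exactly when `v` is uncovered.
-/

namespace Vale.Agent.Results.P308.A_vertex_transitive

open Vale.Agent.Lib.P308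

/-- For a finite connected vertex-transitive graph on `n` vertices: for all `u ≠ v`, the number of
matchings with uncovered set exactly `{u, v}` is at most `4 n ^ 4` times the number `Z G ∅` of
perfect matchings, and the number of near-perfect matchings is at most `4 n ^ 6 * Z G ∅`. -/
theorem result {V : Type*} [Fintype V] [DecidableEq V] (G : SimpleGraph V) [DecidableRel G.Adj]
    (hconn : G.Connected) (htrans : ∀ a b : V, ∃ φ : G ≃g G, φ a = b) :
    (∀ u v : V, u ≠ v → Z G {u, v} ≤ 4 * Fintype.card V ^ 4 * Z G ∅) ∧
      (nearPerfect G).card ≤ 4 * Fintype.card V ^ 6 * Z G ∅ :=
  ⟨pair_bound G hconn htrans, near_bound G hconn htrans⟩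

end Vale.Agent.Results.P308.A_vertex_transitive
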