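import Vale.Agent.Lib.P308.Final

/-!
# A four-point inequality for near-perfect matching counts of arbitrary graphs

For every finite graph and four distinct vertices, with `Z S` the number of matchings with uncovered
set exactly `S`:
`Z{u,v} Z{x,y} ≤ Z∅ Z{u,v,x,y} + Z{u,x} Z{v,y} + Z{u,y} Z{v,x}`.
For disjoint edges `ux`, `vy` this gives
`Z{u,v} Z{x,y} ≤ 2 Z∅ min(Z{u,x}, Z{v,y}) + Z{u,y} Z{x,v}`.
-/

namespace Vale.Agent.Results.P308.B_four_point

open Vale.Agent.Lib.P308

/-- The arithmetic of the edge form. -/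
theorem arith (Z0 a b c : ℕ) (hA : a ≤ Z0) (hB : b ≤ Z0) (hC : c ≤ b) (hD : c ≤ a) :
    Z0 * c + a * b ≤ 2 * Z0 * min a b := by
  rcases le_total a b with h | h
  · rw [min_eq_left h]
    have h5 : Z0 * c ≤ Z0 * a := Nat.mul_le_mul_left _ hD
    have h6 : a * b ≤ a * Z0 := Nat.mul_le_mul_left _ hB
    nlinarith
  · rw [min_eq_right h]
    have h5 : Z0 * c ≤ Z0 * b := Nat.mul_le_mul_left _ hC
    have h6 : a * b ≤ Z0 * b := Nat.mul_le_mul_right _ hA
    nlinarith

theorem set_eq1 {V : Type*} [DecidableEq V] (u v x y : V) :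
    (insert x (insert u {v, y}) : Finset V) = {u, v, x, y} := by
  ext z
  simp only [Finset.mem_insert, Finset.mem_singleton]
  tauto

theorem set_eq2 {V : Type*} [DecidableEq V] (u v x y : V) :
    (insert y (insert v {u, x}) : Finset V) = {u, v, x, y} := by
  ext z
  simp only [Finset.mem_insert, Finset.mem_singleton]
  tauto

/-- The four-point inequality for an arbitrary finite graph, and its form for two disjoint edges. -/
theorem result {V : Type*} [Fintype V] [DecidableEq V] (G : SimpleGraph V) [DecidableRel G.Adj]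
    (u v x y : V) (huv : u ≠ v) (hux : u ≠ x) (huy : u ≠ y) (hvx : v ≠ x) (hvy : v ≠ y)
    (hxy : x ≠ y) :
    Z G {u, v} * Z G {x, y} ≤
        Z G ∅ * Z G {u, v, x, y} + Z G {u, x} * Z G {v, y} + Z G {u, y} * Z G {v, x} ∧
      (G.Adj u x → G.Adj v y →
        Z G {u, v} * Z G {x, y} ≤
          2 * Z G ∅ * min (Z G {u, x}) (Z G {v, y}) + Z G {u, y} * Z G {x, v}) := by
  have h4 : Z G {u, v} * Z G {x, y} ≤
      Z G ∅ * Z G {u, v, x, y} + Z G {u, x} * Z G {v, y} + Z G {u, y} * Z G {v, x} :=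
    four_point G ∅ u v x y (by simp) (by simp) (by simp) (by simp) huv hux huy hvx hvy hxy
  refine ⟨h4, fun h1 h2 => ?_⟩
  have hA : Z G {u, x} ≤ Z G ∅ := Z_pair_adj_le G u x h1
  have hB : Z G {v, y} ≤ Z G ∅ := Z_pair_adj_le G v y h2
  have hC : Z G {u, v, x, y} ≤ Z G {v, y} := by
    have := Z_adj_le G {v, y} u x (by simp [huv, huy]) (by simp [hvx.symm, hxy]) h1
    rwa [set_eq1] at this
  have hD : Z G {u, v, x, y} ≤ Z G {u, x} := by
    have := Z_adj_le G {u, x} v y (by simp [huv.symm, hvx]) (by simp [huy.symm, hxy.symm]) h2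
    rwa [set_eq2] at this
  have hE : Z G {v, x} = Z G {x, v} := by rw [Finset.pair_comm]
  rw [hE] at h4
  exact le_trans h4 (Nat.add_le_add_right (arith _ _ _ _ hA hB hC hD) _)

end Vale.Agent.Results.P308.B_four_point
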